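import Vale.Agent.P207.N4.Geo.Asm
import Vale.Agent.P207.N4.H709.MainA
import Vale.Agent.P207.N4.H229.ProdMain
import Vale.Agent.P207.N4.H340.SInvP

/-!
# P207, line N4: steps 1 to 7

The stable subspaces are smooth along the unstable leaves.
-/

open Set Filter Topology Metric MeasureTheory
open scoped ContDiff

noncomputable section

namespace Vale.Agent.P207.N4

open Vale.Agent.P207.N3

variable [Dim]

/-- (SINV) the S-bundle is invariant under the stable holonomies -/
theorem PicG.sinv {Γ X B : Type} [Group Γ] [MetricSpace X] [ProperSpace X] [MulAction Γ X]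
    [IsIsometricSMul Γ X] [TopologicalSpace B] [CompactSpace B] [T2Space B] [MulAction Γ B]
    [ContinuousConstSMul Γ B] {L : Leaf Γ X B} [MeasurableSpace B] [BorelSpace B] {V : Type}
    [NormedAddCommGroup V] [NormedSpace ℝ V] [FiniteDimensional ℝ V] (P : PicG L V) :
    P.toPic.SInv := by
  obtain ⟨ε₀, h0, h1, -, h3, h4⟩ := H709.exists_T P
  exact H340.sinv_of (H832.rateP P.toPic) (H751.sb P.toPic (H832.rateP P.toPic)) h0 h1 h3 h4
    (H469.angR P)

/-- **Steps 1 to 7.** -/
theorem steps17 : Steps17 := by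
  intro Γ X B V _ _ _ _ _ _ _ _ _ _ _ _ _ _ _ L P
  exact H709.main_of P P.sinv P.prod

end Vale.Agent.P207.N4
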